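import Vale.Agent.P088.R2.H747.A.Rows
import Vale.Agent.P088.R2.H281.EP.Prs
import Vale.Agent.P088.R2.H404.INF.Alv
import Vale.Agent.P088.R2.H509.EP.Lit2
import Vale.Agent.P088.R2.H222.LevT

/-!
# P088, stage 3, zone A: row A-MU

Where `μ` does not vanish (`r < 2`, `Cs M₀ < e^(2 l(mid))`) one has `N ≤ C G` on `OmB`: the level of
the midpoint is at most `u / 2 + C(n)`, so `M₀ ≤ C e^u`, and `G = e^u S(r²) ≥ (c₀² / 8) e^u`.
-/

open Set Filter
open scoped ContDiff Topology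

noncomputable section

namespace Vale.Agent.P088.R2.H222.A

open Vale.Agent.P088.LR
open Vale.Agent.P088.HY hiding rr
open Vale.Agent.P088.R2.H475 Vale.Agent.P088.R2.H31.EP Vale.Agent.P088.R2.H404.INF
open Vale.Agent.P088.R2.H747.A
open Vale.Agent.P088.R2.H464.Cu (mid dif rq)

variable {n : ℕ} {q : Cst} {d : Pk n} {z : VV n}

/-- The conditions on the constants. -/
structure MuC (n : ℕ) (q : Cst) : Prop extends InfC q where
  e0 : 0 < q.e₁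
  c0 : 0 < q.c₀
  c1 : q.c₀ ≤ 1
  nm : 1 ≤ q.nm
  Cs : 1 ≤ q.Cs
  M1 : 1 ≤ q.M₀
  r1 : 2 < q.r₁ * Real.exp (-1)
  CT : 0 < q.ph.CT
  Cb : 0 < q.ph.Cb
  Rn : 2 * (n : ℝ) ≤ q.R

theorem ev_mu (n : ℕ) : EvC (MuC n) := by
  have a1 := EvC.at_c₀ (fun _ t => t ≤ 1) fun _ => sml_le one_pos
  have a2 := EvC.at_M₀ (fun q t => 16 / q.c' ≤ t) fun q => eventually_ge_atTop _
  have a3 := EvC.at_R (fun _ t => 2 * (n : ℝ) ≤ t) fun _ => eventually_ge_atTop _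
  refine (((a1.and a2).and a3).and ((EvC.good.and evInf).and EvC.pos)).mono fun q h => ?_
  obtain ⟨⟨⟨b1, b2⟩, b3⟩, ⟨⟨⟨g, -⟩, -⟩, b4⟩, ⟨-, p2, p3, -, -, p4, -⟩, ⟨-, -, p5, -, p6, -⟩, p7⟩ := h
  have b2' : 16 / q.c' ≤ q.M₀ := b2
  refine ⟨b4, p2, p4, b1, p3, p6, p7.1, ?_, g.CT0, g.Cb0, b3⟩
  have h3 : 1 / 3 ≤ Real.exp (-1) := by
    have := Real.exp_one_lt_d9
    rw [Real.exp_neg, one_div, inv_le_inv₀ (by norm_num) (Real.exp_pos _)]
    linarith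
  rw [div_le_iff₀ p5] at b2'
  have h4 : 8 ≤ q.r₁ := by
    unfold Cst.r₁
    linarith
  nlinarith

/-- The constant. -/
def cMu (n : ℕ) (q : Cst) : ℝ :=
  8 / q.c₀ ^ 2 * ((1 + |q.ph.CT|) * |q.ph.Cb| * Real.exp (6 * n + 1) + 4 * |q.nm|) + 1

theorem cMu_pos (n : ℕ) (q : Cst) : 0 < cMu n q := by
  unfold cMu
  positivity

/-- The sum of the levels is at least twice the level of the midpoint minus `6 n`. -/
theorem lev_mid (hn : 1 ≤ n) (m : MuC n q) (h : PkOk q d) (hx : d.l z.1 < d.l₀ q + 5 / 2 * q.R)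
    (hy : d.l z.2 < d.l₀ q + 5 / 2 * q.R) (hd : ‖z.1 - z.2‖ ≤ 3) :
    2 * d.l (mid z) - 6 * n ≤ d.l z.1 + d.l z.2 := by
  have hR := m.R0
  have e1 : mid z - z.1 = (-(1 / 2) : ℝ) • (z.1 - z.2) := by
    unfold mid
    module
  have e2 : mid z - z.2 = (1 / 2 : ℝ) • (z.1 - z.2) := by
    unfold mid
    module
  have n1 : ‖mid z - z.1‖ ≤ 3 / 2 := by
    rw [e1, norm_smul]
    norm_num
    linarith
  have n2 : ‖mid z - z.2‖ ≤ 3 / 2 := by
    rw [e2, norm_smul]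
    norm_num
    linarith
  have hn0 : (0 : ℝ) ≤ n := Nat.cast_nonneg n
  have hRn := m.Rn
  have k1 : (n : ℝ) * ‖mid z - z.1‖ ≤ q.R := by nlinarith
  have k2 : (n : ℝ) * ‖mid z - z.2‖ ≤ q.R := by nlinarith
  have hl := h.lev.lit
  have x1 : levG n q.σ q.R d.kap d.Gs z.1 ≤ lam0 q.R d.kap d.Gs + 3 * q.R := by
    rw [← hl, ← l₀_eq d q]
    linarith
  have y1 : levG n q.σ q.R d.kap d.Gs z.2 ≤ lam0 q.R d.kap d.Gs + 3 * q.R := by
    rw [← hl, ← l₀_eq d q]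
    linarith
  have a1 := H222.lev_lip (x := mid z) hn m.σ0 m.σ1 hR x1 k1
  have a2 := H222.lev_lip (x := mid z) hn m.σ0 m.σ1 hR y1 k2
  rw [← hl] at a1 a2
  have b1 := (abs_le.1 a1).2
  have b2 := (abs_le.1 a2).2
  have c1 : 2 * (n : ℝ) * ‖mid z - z.1‖ ≤ 3 * n := by nlinarith
  have c2 : 2 * (n : ℝ) * ‖mid z - z.2‖ ≤ 3 * n := by nlinarith
  linarith

/-- `|u - l(x) - l(y)| ≤ 1 / 4`. -/
theorem u_l (h : PkOk q d) (z : VV n) : |d.u q z - (d.l z.1 + d.l z.2)| ≤ 1 / 4 := by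
  have e : d.u q z - (d.l z.1 + d.l z.2) = 2 * (d.χ (d.r2 z) * d.μc q (d.l (mid z))) := by
    unfold Pk.u H31.EP.uu
    simp only [Pk.F]
    have : d.r2 z = H31.EP.r2 (gi d.s₁) z := rfl
    rw [this]
    ring
  have h1 := h.χb (d.r2 z)
  have h2 := (d.μc_abs q (d.l (mid z))).trans (h.ph.μb (d.l (mid z)))
  rw [e, abs_mul, abs_mul, abs_of_nonneg h1.1, abs_of_pos (by norm_num : (0 : ℝ) < 2)]
  have := mul_le_mul h1.2 h2 (abs_nonneg _) zero_le_one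
  linarith

/-- `G = e^u S(r²)` for `r < 2`. -/
theorem GG_eq (m : MuC n q) (h : PkOk q d) (hr : 0 < d.r2 z) (hr4 : d.r2 z < 4)
    (hS : 0 < prS q.e₁ (d.r2 z)) : GG q d z = d.E q z * prS q.e₁ (d.r2 z) := by
  have r0 : 0 < √(d.r2 z) := Real.sqrt_pos.2 hr
  have r2 : √(d.r2 z) < 2 := by
    rw [Real.sqrt_lt' two_pos]
    linarith
  have e1 : √(d.r2 z) ^ 2 = d.r2 z := Real.sq_sqrt hr.le
  have h1 := h.sl.inn 1 0 (ff q d z, rr d z) r0 (r2.trans m.r1)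
  simp only [if_true] at h1
  have h2 : GG q d z = Real.exp (ff q d z) := h1
  rw [h2]
  unfold ff lS rr Pk.E
  rw [e1, Real.exp_add, Real.exp_log hS]

/-- **Row A-MU.** -/
theorem rowMu (n : ℕ) : RowMu n := by
  refine ⟨cMu n, fun q => rfl, cMu_pos n, ?_⟩
  refine ((ev_mu n).and (EvC.rq n)).mono ?_
  rintro q ⟨m, hrq⟩ d h z ⟨z1, z2, z3, z4, z5, z6, z7⟩ hr4 hl
  obtain ⟨-, hq⟩ := hrq d h
  obtain ⟨q1, q2, q3⟩ := hq z
  have er : d.r2 z = 2 * rq (gi d.s₁) z := rfl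
  have hr0 : 0 < d.r2 z := lt_of_le_of_lt (sq_nonneg _) z1
  have hqq : H31.EP.qq z = HY.sq (z.1 - z.2) := rfl
  have hn : 1 ≤ n := by
    by_contra hn
    have hn0 : n = 0 := by omega
    subst hn0
    have : HY.sq (z.1 - z.2) = 0 := by
      unfold HY.sq
      simp
    rw [hqq, this] at q3
    linarith
  -- the distance
  have hd8 : HY.sq (z.1 - z.2) ≤ 9 := by
    rw [hqq] at q2
    linarith
  have hd : ‖z.1 - z.2‖ ≤ 3 := by
    rw [pi_norm_le_iff_of_nonneg (by norm_num)]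
    intro i
    rw [Real.norm_eq_abs]
    refine abs_le_of_sq_le_sq ?_ (by norm_num)
    have : (z.1 - z.2) i ^ 2 ≤ HY.sq (z.1 - z.2) :=
      Finset.single_le_sum (f := fun i => (z.1 - z.2) i ^ 2) (fun j _ => sq_nonneg _)
        (Finset.mem_univ i)
    linarith
  have k1 := lev_mid hn m h z3 z4 hd
  have k2 := (abs_le.1 (u_l h z)).1
  -- `M₀ ≤ e^(6n+1) E`
  have k3 : q.M₀ ≤ Real.exp (6 * n + 1) * d.E q z := by
    unfold Pk.E
    rw [← Real.exp_add]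
    have h1 : q.M₀ ≤ q.Cs * q.M₀ := le_mul_of_one_le_left (by linarith [m.M1]) m.Cs
    refine h1.trans (hl.le.trans (Real.exp_le_exp.2 ?_))
    linarith
  have E0 : 0 < d.E q z := Real.exp_pos _
  have hCT := m.CT
  have hCb := m.Cb
  have hnm := m.nm
  -- `N ≤ C E`
  have k4 : d.N q z ≤ ((1 + |q.ph.CT|) * |q.ph.Cb| * Real.exp (6 * n + 1) + 4 * |q.nm|) *
      d.E q z := by
    rw [abs_of_pos hCT, abs_of_pos hCb, abs_of_pos (by linarith : 0 < q.nm)]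
    have p1 : 0 ≤ (1 + q.ph.CT) * q.ph.Cb * Real.exp (6 * n + 1) * d.E q z := by positivity
    rcases z7 with z7 | z7
    · have c1 := h.top.c1 (d.u q z) z7.le
      have c2 := h.ph.isΦ.n2 (d.u q z)
      have c3 : Real.exp (d.u q z - d.uth q) ≤ 1 := Real.exp_le_one_iff.2 (by linarith)
      have c4 := h.ph.isΦ.n1 (d.u q z)
      have c5 : 0 ≤ deriv d.Φ₁ (d.u q z) := by linarith [m.M1]
      have c6 : (1 + q.ph.CT * Real.exp (d.u q z - d.uth q)) * deriv d.Φ₁ (d.u q z) ≤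
          (1 + q.ph.CT) * (q.ph.Cb * q.M₀) := by
        refine mul_le_mul ?_ c2 c5 (by positivity)
        have := mul_le_mul_of_nonneg_left c3 hCT.le
        linarith
      have c7 : (1 + q.ph.CT) * (q.ph.Cb * q.M₀) ≤
          (1 + q.ph.CT) * q.ph.Cb * Real.exp (6 * n + 1) * d.E q z := by
        have := mul_le_mul_of_nonneg_left k3 (by positivity : 0 ≤ (1 + q.ph.CT) * q.ph.Cb)
        linarith
      have c8 : d.N q z = deriv d.Φ (d.u q z) := rfl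
      have c9 : 0 ≤ 4 * q.nm * d.E q z := by positivity
      rw [c8]
      linarith
    · linarith
  -- `E ≤ 8 / c₀² G`
  have s1 : q.c₀ ^ 2 / 8 ≤ prS q.e₁ (d.r2 z) := by
    have hc := m.c0
    have hc1 := m.c1
    have h1 := H281.EP.prS_ge1 (s := (q.c₀ / 2) ^ 2) m.e0 (sq_nonneg _) (by nlinarith)
    have h2 := H281.EP.prS_mono m.e0 (mem_Ici.2 (sq_nonneg (q.c₀ / 2))) (mem_Ici.2 hr0.le) z1.le
    refine le_trans ?_ (h1.trans h2)
    exact le_of_eq (by ring)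
  have hc : 0 < q.c₀ ^ 2 := pow_pos m.c0 2
  have s0 : 0 < prS q.e₁ (d.r2 z) := lt_of_lt_of_le (by positivity) s1
  have g1 := GG_eq m h hr0 hr4 s0
  have g2 : d.E q z ≤ 8 / q.c₀ ^ 2 * GG q d z := by
    rw [g1, div_mul_eq_mul_div, le_div_iff₀ hc]
    have := mul_le_mul_of_nonneg_left s1 E0.le
    linarith
  have g3 : 0 ≤ GG q d z := by rw [g1]; positivity
  have X0 : 0 ≤ (1 + |q.ph.CT|) * |q.ph.Cb| * Real.exp (6 * n + 1) + 4 * |q.nm| := by positivity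
  have g4 := mul_le_mul_of_nonneg_left g2 X0
  unfold cMu
  linarith

end Vale.Agent.P088.R2.H222.A
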